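import Vale.Agent.P366MM.Mm
import Vale.Agent.P366EN.Bo

/-!
# P366CL: the large spheres are mean convex, with a quantitative bound
-/

open Set Filter Topology Metric Asymptotics
open scoped ContDiff
open Vale.Agent.P366 Vale.Agent.P366M
open Vale.Agent.P366.Stmt (E BigO)
open Vale.Agent.P366MM (rq)
open Vale.Agent.P366EN (Bo bo_iff)

noncomputable section

namespace Vale.Agent.P366CL

variable {n : ℕ}

/-- the unit matrix -/
def de (i j : Fin n) : ℝ := if i = j then 1 else 0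

/-- the inequality for the inverse metric `U`, the Hessian `H` and the direction `θ` -/
def Iq (U H : Fin n → Fin n → ℝ) (θ : E n) : Prop :=
  0 < ∑ i, θ i * ∑ j, U i j * θ j ∧
    2 * (∑ i, θ i * ∑ j, U i j * θ j) ^ 2 +
      ∑ i, ∑ j, H i j * (∑ k, U i k * θ k) * ∑ k, U j k * θ k <
      (∑ i, θ i * ∑ j, U i j * θ j) * ∑ i, ∑ j, U i j * H i j

theorem alg (hn : 3 ≤ n) : ∀ᶠ p : (Fin n → Fin n → ℝ) × (Fin n → Fin n → ℝ) in
    𝓝 (de, fun i j => 2 * de i j), ∀ θ ∈ sphere (0 : E n) 1, Iq p.1 p.2 θ := by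
  refine (isCompact_sphere 0 1).eventually_forall_of_forall_eventually fun θ hθ => ?_
  have h1 : ∑ i, θ i * θ i = 1 := by
    simpa [mem_sphere_zero_iff_norm.1 hθ, sq] using (P366Z.norm_sq_eq θ).symm
  have h2 : ∑ i, 2 * θ i * θ i = 2 := by simp only [mul_assoc, ← Finset.mul_sum, h1, mul_one]
  have h3 : (3 : ℝ) ≤ n := by exact_mod_cast hn
  refine Eventually.and (ContinuousAt.eventually_lt (by fun_prop) (by fun_prop) ?_)
    (ContinuousAt.eventually_lt (by fun_prop) (by fun_prop) ?_)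
  · simp [de, h1]
  · simp [de, h1, h2]
    linarith

theorem lim_up {G : Stmt.Field n}
    (h : ∀ i j, Tendsto (fun y => G y i j) (cocompact (E n)) (𝓝 (de i j))) (i j : Fin n) :
    Tendsto (Stmt.up G i j) (cocompact (E n)) (𝓝 (de i j)) := by
  have h1 : Tendsto (Stmt.mat G) (cocompact (E n)) (𝓝 1) :=
    tendsto_pi_nhds.2 fun i => tendsto_pi_nhds.2 fun j => h i j
  have h2 : ContinuousAt Inv.inv (1 : Matrix (Fin n) (Fin n) ℝ) := continuousAt_matrix_inv _ (by
    rw [Ring.inverse_eq_inv', Matrix.det_one]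
    exact continuousAt_inv₀ one_ne_zero)
  have h3 := h2.tendsto.comp h1
  rw [inv_one] at h3
  exact tendsto_pi_nhds.1 (tendsto_pi_nhds.1 h3 i) j

theorem lim_y {q : ℝ} {f : E n → ℝ} (hq : 0 < q) (h : BigO (q + 1) f) (m : Fin n) :
    Tendsto (fun y => f y * y m) (cocompact (E n)) (𝓝 0) :=
  ((bo_iff.1 h).mul (b := -1) (IsBigO.of_bound 1 (.of_forall fun y => by
    simpa using PiLp.norm_apply_le y m)) (by linarith)).lim0 hq

variable {M : Type} [Mfe n M] {x : M}

theorem sm_rq : Smooth (rq : M → ℝ) := contDiff_normSq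

theorem pd_rq (hx : R0 M ≤ ‖px x‖) (i : Fin n) : pd i rq x = 2 * px x i := pd_normSq hx i

theorem pd2_rq (hx : R0 M < ‖px x‖) (i j : Fin n) : pd2 i j rq x = 2 * de i j := by
  rw [← pd_pd_far hx, pd_congr ((ev_lt_px hx).mono fun z hz => pd_rq hz.le j), pd_const_mul,
    pd_coord hx.le, de]

theorem lims (D : Exterior n M) (hn : 3 ≤ n) (h : D.IsAF) :
    Tendsto (fun x => (fun i j => up D.g i j x, hess D.g rq x)) (cocompact M)
      (𝓝 (de, fun i j => 2 * de i j)) := by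
  obtain ⟨q, hq, h⟩ := h
  have h3 : (3 : ℝ) ≤ n := by exact_mod_cast hn
  have q0 : 0 < q := by linarith
  have u := lim_up (G := fe D.g) fun i j => by
    simpa [de] using ((bo_iff.1 (h i j i i).1).lim0 q0).add_const (de i j)
  have d := fun k i j m => lim_y q0 (h i j k k).2.1 m
  rw [tendsto_fe]
  refine Tendsto.prodMk_nhds (tendsto_pi_nhds.2 fun i => tendsto_pi_nhds.2 fun j => u i j)
    (tendsto_pi_nhds.2 fun i => tendsto_pi_nhds.2 fun j => ?_)
  have t := (tendsto_finsetSum Finset.univ fun k _ => tendsto_finsetSum Finset.univ fun l _ =>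
    (u k l).mul (((d i j l k).add (d j i l k)).sub (d l i j k))).const_sub (2 * de i j)
  simp only [add_zero, sub_zero, mul_zero, Finset.sum_const_zero] at t
  refine t.congr' ((ev_cocompactE.2 ⟨R0 M + 1, fun y hy => ?_⟩))
  have hy' : R0 M < ‖y‖ := by linarith
  have e : px (yp y : M) = y := px_yp (by linarith)
  have e' : R0 M < ‖px (yp y : M)‖ := by rwa [e]
  simp only [hess, pd2_rq e', pd_rq e'.le, e]
  refine congrArg _ (Finset.sum_congr rfl fun k _ => ?_)
  rw [yp, chr_ye hy', Stmt.chr, div_mul_eq_mul_div, mul_left_comm, mul_div_cancel_left₀ _ two_ne_zero,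
    Finset.sum_mul]
  exact Finset.sum_congr rfl fun l _ => by simp only [fe_eq]; ring

/-- **the bound far out** -/
theorem asy (D : Exterior n M) (hn : 3 ≤ n) (h : D.IsAF) : ∃ ρ, R0 M ≤ ρ ∧ ∀ x : M, ρ ≤ ‖px x‖ →
    0 < ip D.g rq rq x ∧ ip D.g rq rq x ^ 2 / (1 + rq x) / 2 +
      ∑ i, (∑ j, hess D.g rq x i j * gr D.g rq j x) * gr D.g rq i x ≤
        ip D.g rq rq x * lap D.g rq x := by
  obtain ⟨ρ, hρ⟩ := ev_cocompact.1 ((lims D hn h).eventually (alg hn))
  refine ⟨max ρ (R0 M), le_max_right _ _, fun x hx => ?_⟩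
  have hx' := le_of_max_le_right hx
  have r0 : 0 < ‖px x‖ := norm_pos_iff.2 (px_ne hx')
  obtain ⟨θ, hθ, e⟩ : ∃ θ : E n, ‖θ‖ = 1 ∧ ∀ i, px x i = ‖px x‖ * θ i :=
    ⟨‖px x‖⁻¹ • px x, norm_smul_inv_norm (px_ne hx'), fun i => by
      simp [mul_inv_cancel_left₀ r0.ne']⟩
  obtain ⟨h1, h2⟩ := hρ x (le_of_max_le_left hx) θ (mem_sphere_zero_iff_norm.2 hθ)
  have e0 : rq x = ‖px x‖ ^ 2 := rfl
  generalize ‖px x‖ = r at r0 e e0
  have e1 : ∀ i, gr D.g rq i x = 2 * r * ∑ k, up D.g i k x * θ k := fun i => by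
    simp only [gr, pd_rq hx', e, Finset.mul_sum]
    exact Finset.sum_congr rfl fun _ _ => by ring
  have e2 : ip D.g rq rq x = 4 * r ^ 2 * ∑ i, θ i * ∑ j, up D.g i j x * θ j := by
    simp only [ip_eq_gr, pd_rq hx', e, e1]
    rw [Finset.mul_sum]
    exact Finset.sum_congr rfl fun _ _ => by ring
  have e3 : ∑ i, (∑ j, hess D.g rq x i j * gr D.g rq j x) * gr D.g rq i x = 4 * r ^ 2 *
      ∑ i, ∑ j, hess D.g rq x i j * (∑ k, up D.g i k x * θ k) * ∑ k, up D.g j k x * θ k := by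
    simp only [e1]
    rw [Finset.mul_sum]
    refine Finset.sum_congr rfl fun _ _ => ?_
    rw [Finset.sum_mul, Finset.mul_sum Finset.univ _ (4 * r ^ 2)]
    exact Finset.sum_congr rfl fun _ _ => by ring
  rw [e3, e2, e0, D.met.lap_eq_tr (sm_rq.c2 x), tr]
  dsimp only at h1 h2
  generalize ∑ i, θ i * ∑ j, up D.g i j x * θ j = σ at h1 h2
  refine ⟨by positivity, ?_⟩
  have k : (4 * r ^ 2 * σ) ^ 2 / (1 + r ^ 2) ≤ 16 * r ^ 2 * σ ^ 2 := by
    rw [div_le_iff₀ (by positivity)]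
    nlinarith [sq_nonneg (r * σ)]
  nlinarith [mul_le_mul_of_nonneg_left h2.le (sq_nonneg r)]

end Vale.Agent.P366CL
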