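import Vale.Agent.P366MM.Mm
import Vale.Agent.P366K.Defs
import Mathlib.Analysis.Matrix.Order

/-!
# P366CL: the volume density and the lengths along a line of metrics
-/

open Set Filter Topology Matrix
open scoped MatrixOrder
open Vale.Agent.P366M Vale.Agent.P366K Vale.Agent.P366MM

noncomputable section

namespace Vale.Agent.P366CL

variable {n : ℕ} {G H : Matrix (Fin n) (Fin n) ℝ}

/-- simultaneous diagonalisation -/
theorem diag (hG : G.PosDef) (hH : Hᵀ = H) : ∃ (A B : Matrix (Fin n) (Fin n) ℝ) (d : Fin n → ℝ),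
    A * B = 1 ∧ G = Aᵀ * A ∧ H = Aᵀ * diagonal d * A := by
  obtain ⟨A, u, rfl⟩ := CStarAlgebra.isStrictlyPositive_iff_eq_star_mul_self.mp hG.isStrictlyPositive
  have u' := (Matrix.isUnit_iff_isUnit_det _).1 u
  have hS : (A⁻¹ᵀ * H * A⁻¹).IsHermitian := by
    simp [IsHermitian, hH, Matrix.mul_assoc]
  have e := hS.spectral_theorem
  rw [Unitary.conjStarAlgAut_apply] at e
  obtain ⟨U, hU⟩ : ∃ U : Matrix (Fin n) (Fin n) ℝ, U = hS.eigenvectorUnitary := ⟨_, rfl⟩
  have u1 : U * Uᵀ = 1 := by simpa [hU, star_eq_conjTranspose] using hS.eigenvectorUnitary.2.2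
  have e' : A⁻¹ᵀ * H * A⁻¹ = U * diagonal hS.eigenvalues * Uᵀ := by
    simpa [hU, star_eq_conjTranspose] using e
  generalize hS.eigenvalues = d at e'
  refine ⟨Uᵀ * A, A⁻¹ * U, d, ?_, ?_, ?_⟩
  · rw [Matrix.mul_assoc, Matrix.mul_nonsing_inv_cancel_left _ _ u', mul_eq_one_comm.1 u1]
  · simp [star_eq_conjTranspose, Matrix.mul_assoc, ← Matrix.mul_assoc U, u1]
  · calc H = (A⁻¹ * A)ᵀ * H * (A⁻¹ * A) := by simp [Matrix.nonsing_inv_mul _ u']
      _ = Aᵀ * (A⁻¹ᵀ * H * A⁻¹) * A := by simp only [transpose_mul, Matrix.mul_assoc]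
      _ = _ := by rw [e']; simp only [transpose_mul, transpose_transpose, Matrix.mul_assoc]

theorem prod_ge {y : Fin n → ℝ} {δ : ℝ} (hδ : δ ≤ 1 / 2) (h : ∀ i, |y i| ≤ δ) :
    1 + ∑ i, y i - 2 * n * δ ^ 2 ≤ ∏ i, (1 + y i) := by
  have p : ∀ i, 1 / 2 ≤ 1 + y i := fun i => by linarith [(abs_le.1 (h i)).1]
  have k : ∀ i, y i - 2 * δ ^ 2 ≤ Real.log (1 + y i) := fun i => by
    refine le_trans ?_ (Real.one_sub_inv_le_log_of_pos (by linarith [p i]))
    have q := sq_le_sq' (abs_le.1 (h i)).1 (abs_le.1 (h i)).2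
    rw [le_sub_comm, inv_le_iff_one_le_mul₀ (by linarith [p i])]
    nlinarith [p i, sq_nonneg δ]
  have := Finset.sum_le_sum (s := Finset.univ) fun i _ => k i
  rw [← Real.exp_log (Finset.prod_pos fun i _ => by linarith [p i]),
    Real.log_prod fun i _ => by linarith [p i]]
  simp only [Finset.sum_sub_distrib, Finset.sum_const, Finset.card_univ, Fintype.card_fin,
    nsmul_eq_mul] at this
  linarith [Real.add_one_le_exp (∑ i, Real.log (1 + y i))]

theorem det_ge (hG : G.PosDef) (hH : Hᵀ = H) {C t : ℝ} (ht : 0 ≤ t) (hC : t * C ≤ 1 / 2)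
    (h : ∀ v : Fin n → ℝ, |v ⬝ᵥ H *ᵥ v| ≤ C * v ⬝ᵥ G *ᵥ v) : |(G⁻¹ * H).trace| ≤ n * C ∧
    G.det * (1 + t * (G⁻¹ * H).trace - 2 * n * (t * C) ^ 2) ≤ (G + t • H).det := by
  obtain ⟨A, B, d, e, rfl, rfl⟩ := diag hG hH
  have e' := mul_eq_one_comm.1 e
  have e1 : (Aᵀ * A)⁻¹ = B * Bᵀ := Matrix.inv_eq_left_inv (by
    rw [Matrix.mul_assoc, ← Matrix.mul_assoc Bᵀ, ← transpose_mul, e, transpose_one, Matrix.one_mul,
      e'])
  have e2 : ((Aᵀ * A)⁻¹ * (Aᵀ * diagonal d * A)).trace = ∑ i, d i := by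
    rw [e1, Matrix.mul_assoc B, Matrix.mul_assoc Aᵀ, ← Matrix.mul_assoc Bᵀ, ← transpose_mul, e,
      transpose_one, Matrix.one_mul, trace_mul_comm, Matrix.mul_assoc, e, Matrix.mul_one,
      trace_diagonal]
  have e3 : ∀ i, |d i| ≤ C := fun i => by
    have := h (B *ᵥ Pi.single i 1)
    simp only [← mulVec_mulVec, dotProduct_mulVec _ Aᵀ, vecMul_transpose] at this
    rw [mulVec_mulVec _ A B, e, one_mulVec] at this
    simpa using this
  have e4 : Aᵀ * A + t • (Aᵀ * diagonal d * A) = Aᵀ * diagonal (fun i => 1 + t * d i) * A := by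
    rw [← diagonal_add, diagonal_one, Matrix.mul_add, Matrix.add_mul, Matrix.mul_one,
      ← Matrix.smul_mul, ← Matrix.mul_smul, ← diagonal_smul]
    rfl
  rw [e2, e4]
  refine ⟨(Finset.abs_sum_le_sum_abs _ _).trans (by
    simpa using Finset.sum_le_sum (s := Finset.univ) fun i _ => e3 i), ?_⟩
  have k := prod_ge (y := fun i => t * d i) hC fun i => by
    rw [abs_mul, abs_of_nonneg ht]
    exact mul_le_mul_of_nonneg_left (e3 i) ht
  simp only [det_mul, det_transpose, det_diagonal, Finset.mul_sum]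
  nlinarith [mul_le_mul_of_nonneg_left k (mul_self_nonneg A.det)]

variable {M : Type} [Mfe n M] {g h : Fld n M} {x : M} {C t : ℝ}

omit [Mfe n M] in
theorem sq_mat (T : Fld n M) (x : M) (v : Fin n → ℝ) : sq T x v = v ⬝ᵥ mat T x *ᵥ v := by
  simp only [P366MM.sq, dotProduct, mulVec, mat, Finset.mul_sum]
  exact Finset.sum_congr rfl fun _ _ => Finset.sum_congr rfl fun _ _ => by ring

theorem dens_ge (hg : Met g) (hh : Sym h) (ht : 0 ≤ t) (hC : t * C ≤ 1 / 2)
    (hm : Met (fam g h t)) (b : ∀ v, |sq h x v| ≤ C * sq g x v) : |tr g h x| ≤ n * C ∧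
    dens g x ^ 2 * (1 + t * tr g h x - 2 * n * (t * C) ^ 2) ≤ dens (fam g h t) x ^ 2 := by
  have k := det_ge (hg.pos x) (H := mat h x) (Matrix.ext fun i j => hh.sy x j i) ht hC
    (by simpa only [sq_mat] using b)
  have e : ((mat g x)⁻¹ * mat h x).trace = tr g h x :=
    Finset.sum_congr rfl fun i _ => Matrix.mul_apply.trans (Finset.sum_congr rfl fun j _ =>
      congrArg (up g i j x * ·) (hh.sy x j i))
  rw [e] at k
  refine ⟨k.1, ?_⟩
  rw [dens, dens, div_pow, div_pow, Real.sq_sqrt (hg.pos x).det_pos.le,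
    Real.sq_sqrt (hm.pos x).det_pos.le, div_mul_eq_mul_div]
  exact div_le_div_of_nonneg_right k.2 (sq_nonneg _)

omit [Mfe n M] in
theorem sq_fam (g h : Fld n M) (t : ℝ) (x : M) (v : Fin n → ℝ) :
    sq (fam g h t) x v = sq g x v + t * sq h x v := by
  simp only [P366MM.sq, fam, Finset.mul_sum, ← Finset.sum_add_distrib]
  exact Finset.sum_congr rfl fun _ _ => Finset.sum_congr rfl fun _ _ => by ring

omit [Mfe n M] in
theorem sq_add (T : Fld n M) (x : M) (u v : Fin n → ℝ) (t : ℝ) :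
    sq T x (fun i => u i + t * v i) = sq T x u + t * (sq T x (fun i => u i + v i) - sq T x u -
      sq T x v) + t ^ 2 * sq T x v := by
  simp only [P366MM.sq, Finset.mul_sum, ← Finset.sum_add_distrib, ← Finset.sum_sub_distrib]
  exact Finset.sum_congr rfl fun _ _ => Finset.sum_congr rfl fun _ _ => by ring

theorem sq_gp (hg : Met g) (Y : Fin n → M → ℝ) (x : M) (e : Fin n → ℝ) :
    sq g x (fun i => e i + Y i x) = sq g x e + 2 * gp g Y x e + sq g x fun i => Y i x := by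
  have : gp g Y x e = ∑ i, ∑ j, g x i j * e i * Y j x := by
    rw [gp, Finset.sum_comm]
    exact Finset.sum_congr rfl fun _ _ => Finset.sum_congr rfl fun _ _ => by rw [hg.sy]; ring
  rw [two_mul]
  nth_rewrite 1 [this]
  simp only [P366MM.sq, gp, ← Finset.sum_add_distrib]
  exact Finset.sum_congr rfl fun _ _ => Finset.sum_congr rfl fun _ _ => by ring

/-- the variation is bounded in terms of the metric -/
theorem ex_C (hm : ∀ᶠ t in 𝓝 (0 : ℝ), Met (fam g h t)) :
    ∃ C, 0 < C ∧ ∀ x v, |sq h x v| ≤ C * sq g x v := by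
  obtain ⟨δ, δ0, hδ⟩ := Metric.eventually_nhds_iff.1 hm
  refine ⟨2 / δ, by positivity, fun x v => ?_⟩
  have h1 : 0 ≤ sq _ x v := (hδ (y := δ / 2) (by simp [abs_of_pos δ0, δ0])).g_nonneg x v
  have h2 : 0 ≤ sq _ x v := (hδ (y := -(δ / 2)) (by simp [abs_of_pos δ0, δ0])).g_nonneg x v
  rw [sq_fam] at h1 h2
  rw [div_mul_eq_mul_div, le_div_iff₀ δ0, ← abs_of_pos δ0, ← abs_mul, abs_le]
  constructor <;> linarith

end Vale.Agent.P366CL
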