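import Vale.Agent.P366CL.As
import Vale.Agent.P366MM.Co
import Vale.Agent.P366DB.Defs
import Vale.Agent.P366Z.ColA

/-!
# P366CL: the calibration of the far region
-/

open MeasureTheory Set Filter Topology
open scoped ContDiff
open Vale.Agent.P366M Vale.Agent.P366MM
open Vale.Agent.P366Z.ColA (rp rp_sm rp_zero rp_one rp_mem)

noncomputable section

namespace Vale.Agent.P366CL

variable {n : ℕ} {M : Type} [Mfe n M] {x : M} {D : Exterior n M} {ρ : ℝ} {G : ℝ → ℝ}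

/-- slow ramps -/
theorem ex_L : ∃ L, 0 < L ∧ ∀ a t, deriv (rp a L) t ≤ 1 / 4 := by
  have sm : ContDiff ℝ 1 Real.smoothTransition := Real.smoothTransition.contDiff
  obtain ⟨C, hC⟩ := isCompact_Icc.exists_bound_of_continuousOn
    (sm.continuous_deriv le_rfl).continuousOn (s := Icc (0 : ℝ) 1)
  have c0 : 0 ≤ C := (norm_nonneg _).trans (hC 0 (by simp))
  have h : ∀ t, deriv Real.smoothTransition t ≤ C := fun t => by
    by_cases h0 : t < 0
    · rwa [EventuallyEq.deriv_eq ((eventually_lt_nhds h0).mono fun s hs =>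
        Real.smoothTransition.zero_of_nonpos hs.le), deriv_const]
    by_cases h1 : 1 < t
    · rwa [EventuallyEq.deriv_eq ((eventually_gt_nhds h1).mono fun s hs =>
        Real.smoothTransition.one_of_one_le hs.le), deriv_const]
    · exact (le_abs_self _).trans (hC t ⟨not_lt.1 h0, not_lt.1 h1⟩)
  refine ⟨4 * C + 1, by positivity, fun a t => ?_⟩
  have d : HasDerivAt (rp a (4 * C + 1)) _ t :=
    (sm.differentiable one_ne_zero _).hasDerivAt.comp t
      (((hasDerivAt_id t).sub_const a).div_const (4 * C + 1))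
  rw [d.deriv, mul_one_div, div_le_iff₀ (by positivity)]
  linarith [h ((t - a) / (4 * C + 1))]

/-- the logarithm of the radius -/
def lg (x : M) : ℝ := Real.log (1 + rq x)

theorem rq_pos (x : M) : 0 < 1 + rq x := by unfold rq; positivity

theorem sm_lg : Smooth (lg : M → ℝ) := (CD.add cd_const sm_rq).log fun x => (rq_pos x).ne'

theorem lg_le {r : ℝ} (h : ‖px x‖ ≤ r) : lg x ≤ Real.log (1 + r ^ 2) :=
  Real.log_le_log (rq_pos x) (by unfold rq; gcongr)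

theorem le_lg {r : ℝ} (r0 : 0 ≤ r) (h : r ≤ ‖px x‖) : Real.log (1 + r ^ 2) ≤ lg x :=
  Real.log_le_log (by positivity) (by unfold rq; gcongr)

theorem ex_r (t r0 : ℝ) : ∃ r, r0 ≤ r ∧ t ≤ Real.log (1 + r ^ 2) :=
  ⟨max r0 (Real.exp t), le_max_left _ _, (Real.le_log_iff_exp_le (by positivity)).2 (by
    nlinarith [le_max_right r0 (Real.exp t), sq_nonneg (max r0 (Real.exp t) - 1)])⟩

/-- the calibrating fields -/
def Zg (D : Exterior n M) (ρ : ℝ) (G : ℝ → ℝ) (i : Fin n) (x : M) : ℝ :=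
  Real.exp (-G (lg x)) * (√(ip D.g rq rq x + cut ρ x))⁻¹ * gr D.g rq i x

/-- the bound beyond `ρ` -/
def Bd (D : Exterior n M) (ρ : ℝ) : Prop := R0 M ≤ ρ ∧ ∀ x : M, ρ ≤ ‖px x‖ →
  0 < ip D.g rq rq x ∧ ip D.g rq rq x ^ 2 / (1 + rq x) / 2 +
    ∑ i, (∑ j, hess D.g rq x i j * gr D.g rq j x) * gr D.g rq i x ≤
      ip D.g rq rq x * lap D.g rq x

theorem Bd.pos (h : Bd D ρ) : 0 < ρ := by linarith [h.1, R0_ge M]

theorem Bd.sm (h : Bd D ρ) (hG : ContDiff ℝ ∞ G) : CV ∞ (Zg D ρ G) := by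
  have p : ∀ x, 0 < ip D.g rq rq x + cut ρ x := fun x => by
    rcases le_total ρ ‖px x‖ with k | k
    · linarith [(h.2 x k).1, cut_nonneg ρ x]
    · linarith [D.met.ip_nonneg rq x, cut_one k]
  exact CV.smul ((hG.compM sm_lg).neg.exp.mul ((((D.met.sm_ip sm_rq sm_rq).add (sm_cut ρ)).sqrt
    fun x => (p x).ne').inv fun x => (Real.sqrt_pos.2 (p x)).ne')) (D.met.sm_gr sm_rq)

theorem Bd.eq (h : Bd D ρ) (hx : 2 * ρ ≤ ‖px x‖) (G : ℝ → ℝ) (i : Fin n) :
    Zg D ρ G i x = Real.exp (-G (lg x)) * nrm D.g rq i x := by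
  rw [Zg, cut_zero h.pos hx, add_zero, nrm_eq, mul_assoc, gn]

theorem Bd.le (h : Bd D ρ) (hx : 2 * ρ ≤ ‖px x‖) (G : ℝ → ℝ) :
    sq D.g x (fun i => Zg D ρ G i x) ≤ Real.exp (-G (lg x)) ^ 2 := by
  simp only [h.eq hx, sq_smul]
  exact mul_le_of_le_one_right (sq_nonneg _) (sq_nrm D.met rq x)

theorem Bd.le1 (h : Bd D ρ) (hx : 2 * ρ ≤ ‖px x‖) (hG : 0 ≤ G (lg x)) :
    sq D.g x (fun i => Zg D ρ G i x) ≤ 1 :=
  (h.le hx G).trans (pow_le_one₀ (Real.exp_pos _).le (Real.exp_le_one_iff.2 (neg_nonpos.2 hG)))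

theorem Bd.dv0 (h : Bd D ρ) (hx : 2 * ρ < ‖px x‖) (hG : ContDiff ℝ ∞ G)
    (hd : ∀ t, deriv G t ≤ 1 / 2) : 0 ≤ dv D.g (Zg D ρ G) x := by
  obtain ⟨s0, hs⟩ := h.2 x (by linarith [h.pos])
  have w0 := Real.sqrt_pos.2 s0
  have d0 := (D.met.sm_ip sm_rq sm_rq).diff x
  have d1 : HasDerivAt (fun t => Real.exp (-G (Real.log (1 + t)))) _ (rq x) :=
    ((hG.differentiable (by simp) _).hasDerivAt.comp (rq x)
      (((hasDerivAt_id (rq x)).const_add 1).log (rq_pos x).ne')).neg.exp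
  have d2 := (Real.hasDerivAt_sqrt s0.ne').inv w0.ne'
  have a1 : DAt (fun y => Real.exp (-G (lg y))) x := (hG.compM sm_lg).neg.exp.differentiable
    (by simp) x
  have a2 : DAt (fun y => (√(ip D.g rq rq y))⁻¹) x := (d0.sqrt s0.ne').fun_inv w0.ne'
  have p1 := pd_comp d1 (sm_rq.diff x)
  have p2 := pd_comp (φ := fun t => (√t)⁻¹) d2 d0
  rw [dv_congr (Y := fun i y => Real.exp (-G (lg y)) * (√(ip D.g rq rq y))⁻¹ * gr D.g rq i y)
    fun i => (ev_lt_px hx).mono fun z hz => by rw [Zg, cut_zero h.pos hz.le, add_zero],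
    D.met.dv_smul (a1.mul a2) (D.met.diff_gr (sm_rq.c2 x)), ← lap_eq_dv _ (sm_rq.c2 x)]
  simp only [pd_mul a1 a2, p2, D.met.pd_ip (sm_rq.c2 x) (sm_rq.c2 x)]
  simp only [lg, p1, add_mul, mul_add, mul_assoc, Finset.sum_add_distrib, ← Finset.mul_sum,
    mul_left_comm (pd _ rq x), ← ip_eq_gr, id, Pi.neg_apply, Function.comp_apply]
  have k := mul_le_mul_of_nonneg_right (hd (Real.log (1 + rq x)))
    (div_nonneg (sq_nonneg (ip D.g rq rq x)) (rq_pos x).le)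
  have q := (rq_pos x).ne'
  have e := Real.sq_sqrt s0.le
  generalize √(ip D.g rq rq x) = w at w0 e
  rw [← e] at hs k ⊢
  generalize ∑ i, (∑ j, hess D.g rq x i j * gr D.g rq j x) * gr D.g rq i x = H at hs ⊢
  generalize deriv G (Real.log (1 + rq x)) = d at k ⊢
  refine le_of_le_of_eq (b := Real.exp (-G (Real.log (1 + rq x))) * (w ^ 3)⁻¹ *
    (w ^ 2 * lap D.g rq x - d * ((w ^ 2) ^ 2 / (1 + rq x)) - H)) ?_ ?_
  · exact mul_nonneg (by positivity) (by linarith)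
  · field_simp
    ring

/-- the lower bound does not drop if the divergence is nonnegative between the spheres -/
theorem lf_le {Y : Fin n → M → ℝ} {r R : ℝ} (r0 : 0 < r) (hr : r ≤ R) (hY : CV ∞ Y)
    (hF : ∀ x : M, r < ‖px x‖ → 0 < D.F x) (hd : ∀ x : M, r < ‖px x‖ → 0 ≤ dv D.g Y x) :
    Lf D r Y ≤ Lf D R Y := by
  have c1 := cont_dvd D.met hY
  have c2 : Continuous fun x => max (dv D.g Y x) 0 * dens D.g x :=
    ((D.met.sm_dv hY).cont.max continuous_const).mul D.met.sm_dens.cont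
  have i1 := fun s => (c1.continuousOn.integrableOn_compact (μ := volume)
    (isCompact_px M s)).integrable_indicator (meas_px_le s)
  have i2 := fun s => (c2.continuousOn.integrableOn_compact (μ := volume)
    (cpt_ins D s)).integrable_indicator (meas_ins D s)
  rw [Lf, Lf, fx_eq D.met r0 hY, fx_eq D.met (r0.trans_le hr) hY,
    ← integral_indicator (meas_px_le r), ← integral_indicator (meas_px_le R),
    ← integral_indicator (meas_ins D r), ← integral_indicator (meas_ins D R),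
    ← integral_sub (i1 r) (i2 r), ← integral_sub (i1 R) (i2 R)]
  refine integral_mono ((i1 r).sub (i2 r)) ((i1 R).sub (i2 R)) fun x => ?_
  simp only [indicator, mem_ofPred_eq, Ins]
  by_cases h1 : ‖px x‖ ≤ r
  · simp [h1, h1.trans hr]
  · by_cases h2 : ‖px x‖ ≤ R <;> simp [h1, h2, (hF x (not_le.1 h1)).le, hd x (not_le.1 h1)]

/-- **CAL2** -/
theorem cal2 : P366DB.CAL2 := by
  intro n M _ D R hn hA
  obtain ⟨ρ, h⟩ : ∃ ρ, Bd D ρ := asy D hn hA
  obtain ⟨L, L0, hL⟩ := ex_L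
  obtain ⟨RF, hF⟩ := D.dom.2.2.2
  have ρ0 := h.pos
  obtain ⟨r, a1, a2⟩ : ∃ r, 2 * ρ + 1 ≤ r ∧ RF + 2 ≤ r := ⟨_, le_max_left _ _, le_max_right _ _⟩
  obtain ⟨R1, b, b3⟩ := ex_r (Real.log (1 + r ^ 2) + L) (max r R)
  have b1 := le_of_max_le_left b
  obtain ⟨R2, c1, c2⟩ := ex_r (Real.log (1 + R1 ^ 2) + L) R1
  obtain ⟨G1, e1⟩ : ∃ G, G = rp (Real.log (1 + R1 ^ 2)) L := ⟨_, rfl⟩
  obtain ⟨G0, e0⟩ : ∃ G, G = rp (Real.log (1 + r ^ 2)) L := ⟨_, rfl⟩
  have s1 : ContDiff ℝ ∞ G1 := e1 ▸ rp_sm _ _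
  have s0 : ContDiff ℝ ∞ G0 := e0 ▸ rp_sm _ _
  have n1 : ∀ t, 0 ≤ G1 t := fun t => e1 ▸ (rp_mem _ _ t).1
  have n0 : ∀ t, 0 ≤ G0 t := fun t => e0 ▸ (rp_mem _ _ t).1
  have z1 : ∀ x : M, ‖px x‖ ≤ R1 → G1 (lg x) = 0 := fun x k => e1 ▸ rp_zero L0 (lg_le k)
  have z0 : ∀ x : M, ‖px x‖ ≤ r → G0 (lg x) = 0 := fun x k => e0 ▸ rp_zero L0 (lg_le k)
  have x1 : Real.exp (-1) ≤ 1 / 2 := by
    rw [Real.exp_neg, one_div]
    exact inv_anti₀ two_pos (by linarith [Real.add_one_le_exp 1])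
  refine ⟨R1, R2, Zg D ρ G1, le_of_max_le_right b, ⟨by linarith [h.1], c1,
    fun x k => hF x (by linarith), h.sm s1, fun x k l i => ?_,
    fun x k => h.dv0 (by linarith) s1 fun t => e1 ▸ (hL _ t).trans (by norm_num),
    fun x k => h.le1 (by linarith) (n1 _), fun x k => (h.le (by linarith) _).trans ?_⟩,
    Real.exp (-1), (Real.exp_pos _).le, by linarith, fun A hA => ?_⟩
  · rw [h.eq (by linarith), z1 x l, neg_zero, Real.exp_zero, one_mul]
  · rw [e1, rp_one L0 (c2.trans (le_lg (by linarith) k))]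
    nlinarith [Real.exp_pos (-1)]
  obtain ⟨Y, hY, y1, y2, y3⟩ := mm n M D r A (Zg D ρ fun t => G0 t + G1 t) (by omega)
    (by linarith [h.1]) (fun x k => hF x (by linarith)) (h.sm (s0.add s1)) (fun x k l i => by
      rw [h.eq (by linarith), z0 x l, z1 x (l.trans b1), add_zero, neg_zero, Real.exp_zero,
        one_mul]) hA
  refine ⟨Y, hY, fun x k i => ?_, fun x k => ?_, y3.trans_le (lf_le (by linarith) b1 hY
    (fun x k => hF x (by linarith)) fun x k => ?_)⟩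
  · rw [y1 x (b1.trans k), Zg, Zg, e0, rp_one L0 (b3.trans (le_lg (by linarith) k)), neg_add,
      Real.exp_add]
    ring
  · rcases le_total ‖px x‖ r with l | l
    · exact y2 x ⟨k.1, l⟩
    · simp only [y1 x l]
      exact h.le1 (by linarith) (add_nonneg (n0 _) (n1 _))
  · rw [dv_congr fun i => (ev_lt_px k).mono fun z hz => y1 z hz.le i]
    refine h.dv0 (by linarith) (s0.add s1) fun t => ?_
    rw [deriv_fun_add (s0.differentiable (by simp) t) (s1.differentiable (by simp) t), e0, e1]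
    linarith [hL (Real.log (1 + r ^ 2)) t, hL (Real.log (1 + R1 ^ 2)) t]

/-- **CAL** -/
theorem cal : P366K.CAL := fun n M _ D R hn hA =>
  let ⟨R1, R2, Z, h1, h2, _⟩ := cal2 n M D R hn hA
  ⟨R1, R2, Z, h1, h2⟩

end Vale.Agent.P366CL
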