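import Vale.Agent.P366K.Defs

/-!
# P366CL: the pieces of NI. Statements.
-/

open Filter Topology Set
open Vale.Agent.P366M Vale.Agent.P366K
open Vale.Agent.P366MM (sq Lf Ins)

noncomputable section

namespace Vale.Agent.P366CL

/-- **ND**: the deformed data satisfy the dominant energy condition -/
def ND : Prop := ∀ (n : ℕ) (M : Type) [Mfe n M] (D : Exterior n M) (ε χ c dE : ℝ)
  (h k : Fld n M) (dP : Fin n → ℝ), 3 ≤ n → D.IsAF → D.DEC → Var0 h k dE dP → ε ≤ 1 → 0 < c →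
  (∀ x, 0 ≤ D.F x → ∀ e, sq D.g x e = 1 →
    c ≤ wt ε x * (χ * en D.g D.K x e + lin D.g D.K h k x e)) →
  ∀ᶠ t in 𝓝[>] (0 : ℝ), ∀ x, 0 ≤ D.F x →
    covNorm (fam D.g h t) (mom (fam D.g h t) (fam D.K k t)) x ≤ mu (fam D.g h t) (fam D.K k t) x

/-- **NT**: the boundary of the deformed data is trapped -/
def NT : Prop := ∀ (n : ℕ) (M : Type) [Mfe n M] (D : Exterior n M) (c : ℝ) (h k : Fld n M),
  Sym h → Sym k → 0 < c → (∀ x, D.F x = 0 → thetaPlus D.g D.K D.F x = 0) →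
  (∀ x, D.F x = 0 → c ≤ -dth D.g D.K D.F h k x) →
  ∀ᶠ t in 𝓝[>] (0 : ℝ), ∀ x, D.F x = 0 → thetaPlus (fam D.g h t) (fam D.K k t) D.F x ≤ 0

/-- **NE**: the deformed data exist, with the expected energy and momentum -/
def NE : Prop := ∀ (n : ℕ) (M : Type) [Mfe n M] (D : Exterior n M) (m dE : ℝ) (h k : Fld n M)
  (P dP : Fin n → ℝ), 3 ≤ n → D.IsAF → D.IsEnergy m → D.IsMomentum P → Var0 h k dE dP →
  ∀ᶠ t in 𝓝 (0 : ℝ), ∃ D' : Exterior n M, D'.F = D.F ∧ D'.g = fam D.g h t ∧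
    D'.K = fam D.K k t ∧ D'.IsAF ∧ D'.IsEnergy (m + t * dE) ∧
      D'.IsMomentum fun i => P i + t * dP i

/-- **NA**: the minimal area of the deformed data -/
def NA : Prop := ∀ (n : ℕ) (M : Type) [Mfe n M] (D : Exterior n M) (R1 R2 c s dE : ℝ)
  (Z Y : Fin n → M → ℝ) (h k : Fld n M) (dP : Fin n → ℝ), 3 ≤ n → D.IsAF → Cal D R1 R2 Z →
  Tf R1 Z Y → Var0 h k dE dP → 0 < c →
  (∀ x ∈ Ins D R2, ∀ e, sq D.g x e = 1 → c ≤ ar D.g h x e - gp D.g Y x e + s) →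
  ∀ᶠ t in 𝓝[>] (0 : ℝ), ∀ D' : Exterior n M, D'.F = D.F → D'.g = fam D.g h t →
    ∀ A, ENNReal.ofReal A < D.Amin →
      ENNReal.ofReal ((A + t * Lf D R1 Y) / (1 + t * s)) ≤ D'.Amin

end Vale.Agent.P366CL
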