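import Vale.Agent.P366CL.Det
import Vale.Agent.P366CL.NDefs
import Vale.Agent.P366K.Bd
import Vale.Agent.P366DB.Mu3
import Vale.Agent.P366MM.Co

/-!
# P366CL: the minimal area along a variation; no variation improves the inequality
-/

open Set Filter Topology
open scoped ContDiff
open Vale.Agent.P366M Vale.Agent.P366K Vale.Agent.P366MM
open Vale.Agent.P366.Stmt (omega)

noncomputable section

namespace Vale.Agent.P366CL

variable {n : ℕ} {M : Type} [Mfe n M] {g h : Fld n M} {x : M} {C W t c s : ℝ} {Y : Fin n → M → ℝ}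

theorem num (C K L s a : ℝ) (hc : 0 < c) : ∀ᶠ t in 𝓝 (0 : ℝ), (t * C < 1 / 2 ∧ t < 1 ∧
    0 < 1 + t * s) ∧ ∀ τ ∈ Icc (-L) L, 0 < 2 * c + t * (2 * s * τ + s ^ 2 - 2 * n * C ^ 2 - K) +
      t ^ 2 * (s ^ 2 * τ - 4 * s * n * C ^ 2) - t ^ 3 * (2 * n * s ^ 2 * C ^ 2) ∧
    (1 + t * C) * ((1 + t * a) ^ 2 / 4) < (1 + t * s) ^ 2 * (1 + t * τ - 2 * n * (t * C) ^ 2) := by
  refine Eventually.and (Eventually.and ?_ (Eventually.and ?_ ?_))
    (isCompact_Icc.eventually_forall_of_forall_eventually fun τ _ => Eventually.and ?_ ?_) <;>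
    refine ContinuousAt.eventually_lt (by fun_prop) (by fun_prop) ?_ <;> norm_num [hc]

/-- the length of `e + t Y` for a unit vector `e` -/
theorem unit_le (hg : Met g) (ht : 0 ≤ t) (t1 : t ≤ 1) (c0 : 0 ≤ C)
    (b : ∀ v, |sq h x v| ≤ C * sq g x v) (w : sq g x (fun i => Y i x) ≤ W) {e : Fin n → ℝ}
    (he : sq g x e = 1) (k : c ≤ ar g h x e - gp g Y x e + s) :
    sq (fam g h t) x (fun i => e i + t * Y i x) ≤
      1 + t * (tr g h x + 2 * s - 2 * c) + t ^ 2 * (W + C * (3 + 4 * W)) := by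
  have b1 := abs_le.1 (b fun i => e i + Y i x)
  have b2 := abs_le.1 (b e)
  have b3 := abs_le.1 (b fun i => Y i x)
  have q : 0 ≤ sq g x fun i => e i + -1 * Y i x := hg.g_nonneg x _
  have k' : c ≤ (tr g h x - sq h x e) / 2 - gp g Y x e + s := k
  rw [sq_add, sq_gp hg, he] at q
  rw [sq_gp hg, he] at b1
  rw [sq_fam, sq_add g, sq_add h, sq_gp hg, he] at *
  have w0 : 0 ≤ sq g x fun i => Y i x := hg.g_nonneg x _
  have m1 := mul_le_mul_of_nonneg_left w c0
  have m2 : C * gp g Y x e * 2 ≤ C * (1 + W) := by nlinarith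
  have m3 : t * sq h x (fun i => Y i x) ≤ C * W := by nlinarith
  have m4 : sq g x (fun i => Y i x) + (sq h x (fun i => e i + Y i x) - sq h x e -
      sq h x fun i => Y i x) + t * sq h x (fun i => Y i x) ≤ W + C * (3 + 4 * W) := by nlinarith
  nlinarith [mul_le_mul_of_nonneg_left m4 (sq_nonneg t), mul_le_mul_of_nonneg_left k' ht]

omit [Mfe n M] in
theorem sq_zero (g : Fld n M) (x : M) : sq g x 0 = 0 := by simp [P366MM.sq]

theorem ex_dir (hg : Met g) (hn : 0 < n) {v : Fin n → ℝ} (hv : sq g x v ≤ 1) :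
    ∃ e ρ, sq g x e = 1 ∧ 0 ≤ ρ ∧ ρ ≤ 1 ∧ ∀ i, v i = ρ * e i := by
  have key : ∀ u : Fin n → ℝ, u ≠ 0 → 0 < √(sq g x u) ∧ sq g x (fun i => (√(sq g x u))⁻¹ * u i) = 1 :=
    fun u hu => by
      have p : 0 < sq g x u := hg.g_pos x hu
      exact ⟨Real.sqrt_pos.2 p, by rw [sq_smul, inv_pow, Real.sq_sqrt p.le, inv_mul_cancel₀ p.ne']⟩
  by_cases h0 : v = 0
  · exact ⟨_, 0, (key 1 fun e => one_ne_zero (congrFun e ⟨0, hn⟩)).2, le_rfl, zero_le_one,
      by simp [h0]⟩
  · exact ⟨_, √(sq g x v), (key v h0).2, Real.sqrt_nonneg _, Real.sqrt_le_one.2 hv, fun i =>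
      (mul_inv_cancel_left₀ (key v h0).1.ne' _).symm⟩

/-- from the unit vectors to the unit ball -/
theorem ball_le {g' : Fld n M} (hg : Met g) (hg' : Met g') (hn : 0 < n) {κ : ℝ} {y v : Fin n → ℝ}
    (k : ∀ e, sq g x e = 1 → sq g' x (fun i => κ * (e i + y i)) ≤ 1) (hv : sq g x v ≤ 1) :
    sq g' x (fun i => κ * (v i + y i)) ≤ 1 := by
  obtain ⟨e, ρ, he, r0, r1, e1⟩ := ex_dir hg hn hv
  have := sq_conv hg' x (a := (1 + ρ) / 2) (b := (1 - ρ) / 2) (by linarith) (by linarith)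
    (by ring) (k e he) (k (fun i => -1 * e i) (by rw [sq_smul, he]; ring))
  refine le_of_eq_of_le (congrArg _ (funext fun i => ?_)) this
  rw [e1]
  ring

/-- **NA** -/
theorem na : NA := by
  intro n M _ D R1 R2 c s dE Z Y h k dP hn hA hC hY V c0 H
  have hm := met_fam hn hA V
  obtain ⟨C, C0, b⟩ := ex_C hm
  obtain ⟨W, hW⟩ := (cpt_ins D R2).exists_bound_of_continuousOn
    (D.met.sm.quad le_rfl hY.sm hY.sm).continuous.continuousOn
  obtain ⟨a, a0, ha⟩ := hY.far
  have r0 : 0 < R1 := by linarith [hC.R0, R0_ge M]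
  filter_upwards [nhdsWithin_le_nhds (num (n := n) C (W + C * (3 + 4 * W)) (n * C) s a c0),
    self_mem_nhdsWithin] with t ⟨⟨t1, t2, t3⟩, ht⟩ t0 D' eF eg A hA'
  have t0 : 0 < t := t0
  obtain ⟨Y0, s0, y1, y2, y3⟩ := mm n M D R1 A Z (by omega) hC.R0 hC.pos hC.sm hC.col hA'
  have i0 := inv_pos.2 t3
  have far : ∀ x : M, R1 ≤ ‖px x‖ → ∀ i, (1 + t * s)⁻¹ * Y0 i x + (1 + t * s)⁻¹ * t * Y i x =
      (1 + t * s)⁻¹ * (1 + t * a) * Z i x := fun x hx i => by rw [y1 x hx, ha x hx]; ring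
  refine le_trans (ENNReal.ofReal_le_ofReal ?_) (lb n M D D' R1
    (fun i y => (1 + t * s)⁻¹ * Y0 i y + (1 + t * s)⁻¹ * t * Y i y) (fun x => by rw [eF]) r0
    ((CV.smul cd_const s0).add (CV.smul cd_const hY.sm)) (fun x hx => ?_) fun x hx => ?_)
  · refine le_trans ?_ (P366DB.lf_lc i0.le (by positivity) r0 s0 hY.sm)
    rw [div_eq_inv_mul]
    nlinarith [mul_le_mul_of_nonneg_left y3.le i0.le]
  · have m := eg ▸ D'.met
    obtain ⟨d1, d2⟩ := dens_ge D.met V.sh t0.le t1.le m (b x)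
    obtain ⟨n1, n2⟩ := ht _ (abs_le.1 d1)
    have g0 := D.met.dens_pos x
    have g1 := m.dens_pos x
    have key : ∀ v, sq (fam D.g h t) x v ≤ (1 + t * s) ^ 2 * (1 + t * tr D.g h x -
        2 * n * (t * C) ^ 2) → sq (fam D.g h t) x (fun i => dens D.g x / dens (fam D.g h t) x *
          (1 + t * s)⁻¹ * v i) ≤ 1 := fun v hv => by
      rw [sq_smul, mul_pow, div_pow, inv_pow, div_mul_eq_mul_div, div_mul_eq_mul_div,
        div_le_one (by positivity), mul_assoc]
      exact (mul_le_mul_of_nonneg_left ((inv_mul_le_iff₀ (by positivity)).2 hv)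
        (sq_nonneg _)).trans d2
    have goal : sq (fam D.g h t) x (fun i => dens D.g x / dens (fam D.g h t) x * (1 + t * s)⁻¹ *
        (Y0 i x + t * Y i x)) ≤ 1 := by
      rcases le_total ‖px x‖ R2 with l | l
      · refine ball_le D.met m (by omega) (fun e he => key _ ((unit_le D.met t0.le t2.le C0.le
          (b x) ((le_abs_self _).trans (hW x ⟨hx, l⟩)) he (H x ⟨hx, l⟩ e he)).trans ?_)) ?_
        · nlinarith [mul_pos t0 n1]
        · rcases le_total ‖px x‖ R1 with l' | l'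
          · exact y2 x ⟨hx, l'⟩
          · simpa only [y1 x l'] using hC.le1 x l'
      · refine key _ (le_trans ?_ n2.le)
        have l' := hC.R12.trans l
        have e : (fun i => Y0 i x + t * Y i x) = fun i => (1 + t * a) * Z i x :=
          funext fun i => by rw [y1 x l', ha x l']; ring
        have z := mul_le_mul_of_nonneg_left (hC.half x l) (sq_nonneg (1 + t * a))
        rw [← sq_smul] at z
        rw [e, sq_fam]
        nlinarith [mul_le_mul_of_nonneg_left (abs_le.1 (b x fun i => (1 + t * a) * Z i x)).2 t0.le,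
          mul_le_mul_of_nonneg_left z (mul_pos t0 C0).le]
    rw [eg, ← le_div_iff₀' (by positivity), ← div_le_one (by positivity), div_div_eq_mul_div,
      mul_div_assoc, ← div_pow, mul_comm, ← sq_smul]
    exact le_of_eq_of_le (congrArg _ (funext fun i => by ring)) goal
  · rw [dv_congr fun i => (ev_lt_px hx).mono fun z hz => far z hz.le i, dv_const_mul]
    exact mul_nonneg (by positivity) (hC.dv0 x hx)

theorem der_le {f g : ℝ → ℝ} {a b : ℝ} (hf : HasDerivAt f a 0) (hg : HasDerivAt g b 0)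
    (e : f 0 = g 0) (h : ∀ᶠ t in 𝓝[>] (0 : ℝ), f t ≤ g t) : a ≤ b := by
  refine le_of_tendsto_of_tendsto hf.tendsto_slope_zero_right hg.tendsto_slope_zero_right ?_
  filter_upwards [h, self_mem_nhdsWithin] with t ht t0
  simp only [zero_add, e, smul_eq_mul]
  exact mul_le_mul_of_nonneg_left (by linarith) (inv_pos.2 t0).le

/-- **NI** from its pieces -/
theorem ni_of (F : FULL) (hD : ND) (hT : NT) (hE : NE) : NI := by
  intro n M _ D m P κ R1 R2 ε χ c s dE Z Y h k dP E hC hY V e1 c0 H1 H2 H3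
  obtain ⟨fin, -, -⟩ := F n M D m P E.n3 E.af E.dec (fun x hx => (E.mar x hx).le) E.en E.mo
  have n3 : (3 : ℝ) ≤ n := by exact_mod_cast E.n3
  have w0 : 0 < omega n := P366Z.omega_pos (by linarith [E.n3])
  have κ0 := E.κ0
  obtain ⟨ρ, hρ⟩ : ∃ ρ, ρ = (n - 2) / (2 * κ) := ⟨_, rfl⟩
  have ρ0 : 0 < ρ := hρ ▸ div_pos (by linarith) (by positivity)
  have hb : bm m P = ρ ^ ((n : ℝ) - 2) / 2 := hρ ▸ E.ms
  have b0 : 0 < bm m P := by rw [hb]; positivity
  have ka := E.ka
  obtain ⟨A, hA⟩ : ∃ A, A = D.Amin.toReal := ⟨_, rfl⟩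
  rw [← hA] at ka ⊢
  have A0 : 0 < A := (mul_pos_iff_of_pos_left κ0).1 (ka ▸ mul_pos (mul_pos (by linarith) w0) b0)
  have eA : A / omega n = ρ ^ ((n : ℝ) - 1) := by
    rw [show (n : ℝ) - 1 = n - 2 + 1 by ring, Real.rpow_add_one ρ0.ne', div_eq_iff w0.ne',
      show ρ ^ ((n : ℝ) - 2) = 2 * bm m P by linarith, hρ]
    field_simp
    linarith
  have eB : (A / omega n) ^ (((n : ℝ) - 2) / (n - 1)) = 2 * bm m P := by
    rw [eA, ← Real.rpow_mul ρ0.le, mul_div_cancel₀ _ (by linarith), hb]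
    ring
  have d0 : HasDerivAt (fun t => (A + t * Lf D R1 Y) / (1 + t * s) / omega n)
      ((Lf D R1 Y - s * A) / omega n) 0 := by
    refine (HasDerivAt.congr_deriv ((((hasDerivAt_id' (0 : ℝ)).mul_const (Lf D R1 Y)).const_add
      A).div (((hasDerivAt_id' (0 : ℝ)).mul_const s).const_add 1) (by simp)) ?_).div_const _
    simp [mul_comm]
  have d1 := (d0.rpow_const (p := ((n : ℝ) - 2) / (n - 1)) (.inl (by
    simpa using ⟨A0.ne', w0.ne'⟩))).div_const 2
  have q0 : 0 < m ^ 2 - ∑ i, P i ^ 2 := Real.sqrt_pos.1 b0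
  have d2 := (((((hasDerivAt_id' (0 : ℝ)).mul_const dE).const_add m).fun_pow 2).fun_sub
    (HasDerivAt.fun_sum fun i (_ : i ∈ Finset.univ) => (((hasDerivAt_id' (0 : ℝ)).mul_const
      (dP i)).const_add (P i)).fun_pow 2)).sqrt (by simpa using q0.ne')
  have key := der_le d1 d2 (by simp [eB, bm]) (by
    filter_upwards [hD n M D ε χ c dE h k dP E.n3 E.af E.dec V e1 c0 H1,
      hT n M D c h k V.sh V.sk c0 E.mar H2,
      nhdsWithin_le_nhds (hE n M D m dE h k P dP E.n3 E.af E.en E.mo V),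
      na n M D R1 R2 c s dE Z Y h k dP E.n3 E.af hC hY V c0 H3,
      nhdsWithin_le_nhds (continuousAt_const.eventually_lt d0.continuousAt
        (by simpa using div_pos A0 w0)),
      nhdsWithin_le_nhds ((continuousAt_const (y := (0 : ℝ))).eventually_lt
        (g := fun t => 1 + t * s) (by fun_prop) (by simp))]
      with t h1 h2 ⟨D', eF, eg, eK, a1, a2, a3⟩ h4 h5 h6
    obtain ⟨f1, -, f2⟩ := F n M D' _ _ E.n3 a1 (fun x hx => by rw [eg, eK]; exact h1 x (eF ▸ hx))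
      (fun x hx => by rw [eg, eK, eF]; exact h2 x (eF ▸ hx)) a2 a3
    refine le_trans (div_le_div_of_nonneg_right (Real.rpow_le_rpow h5.le
      (div_le_div_of_nonneg_right ?_ w0.le) (div_nonneg (by linarith) (by linarith))) two_pos.le) f2
    rw [div_le_iff₀ h6, ← le_sub_iff_add_le]
    refine le_of_forall_lt_imp_le_of_dense fun A' hA' => ?_
    rw [le_sub_iff_add_le, ← div_le_iff₀ h6]
    refine (ENNReal.ofReal_le_iff_le_toReal f1).1 (h4 D' eF eg A' ?_)
    rw [← ENNReal.ofReal_toReal fin, ← hA]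
    exact (ENNReal.ofReal_lt_ofReal_iff A0).2 hA')
  simp only [zero_mul, add_zero, div_one, one_mul, Nat.cast_ofNat, Nat.add_one_sub_one,
    pow_one] at key
  rw [Real.rpow_sub_one (div_pos A0 w0).ne', eB] at key
  have e : κ * (Lf D R1 Y - s * A) = (n - 1) * omega n * ((Lf D R1 Y - s * A) / omega n *
      ((n - 2) / (n - 1)) * (2 * bm m P / (A / omega n)) / 2) := by
    have : (n : ℝ) - 1 ≠ 0 := by linarith
    rw [eq_div_of_mul_eq A0.ne' ka]
    field_simp
  rw [e, dm]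
  refine mul_le_mul_of_nonneg_left (key.trans_eq ?_) (mul_nonneg (by linarith) w0.le)
  simp only [mul_assoc, ← Finset.mul_sum, ← mul_sub]
  exact mul_div_mul_left _ _ two_ne_zero

end Vale.Agent.P366CL
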